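import Vale.Agent.P174.H89.Dart2

/-!
# P174, T2 at the level of darts: conclusion
-/

namespace Vale.Agent.P174.H89

open Matrix Module

section SumKer

/-- kernels of blocks with disjoint supports -/
lemma sum_finrank_le {J : Type} [Fintype J] [DecidableEq J] {Z : Type} [Fintype Z] {Y : J → Type}
    [∀ j, Fintype (Y j)] (κ : ∀ j, Y j → Z) (hκ : ∀ j, Function.Injective (κ j))
    (hdis : ∀ j j' y y', κ j y = κ j' y' → j = j') (T : Matrix Z Z ℂ)
    (hT : ∀ j y z, (∀ y', κ j y' ≠ z) → T z (κ j y) = 0) :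
    ∑ j, finrank ℂ (kerM (T.submatrix (κ j) (κ j))) ≤ finrank ℂ (kerM T) := by
  let g : ∀ j, (Y j → ℂ) →ₗ[ℂ] (Z → ℂ) := fun j => Function.ExtendByZero.linearMap ℂ (κ j)
  have hg1 : ∀ j (x : Y j → ℂ) y, g j x (κ j y) = x y := by
    intro j x y
    exact (hκ j).extend_apply x (0 : Z → ℂ) y
  have hg2 : ∀ j (x : Y j → ℂ) z, (∀ y, κ j y ≠ z) → g j x z = 0 := by
    intro j x z hz
    exact Function.extend_apply' x (0 : Z → ℂ) z (by rintro ⟨y, hy⟩; exact hz y hy)
  let f : (∀ j, kerM (T.submatrix (κ j) (κ j))) →ₗ[ℂ] (Z → ℂ) :=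
    ∑ j, (g j).comp ((kerM (T.submatrix (κ j) (κ j))).subtype.comp (LinearMap.proj j))
  have hf0 : ∀ x, f x = ∑ j, g j (x j).1 := by
    intro x
    simp [f, LinearMap.sum_apply]
  have hker : ∀ j (x : kerM (T.submatrix (κ j) (κ j))), T *ᵥ (g j x.1) = 0 := by
    intro j x
    have hx := (mem_kerM _ _).1 x.2
    funext z
    have hs : (T *ᵥ (g j x.1)) z = ∑ y, T z (κ j y) * x.1 y := by
      rw [Matrix.mulVec, dotProduct]
      symm
      apply Fintype.sum_of_injective (κ j) (hκ j)
      · intro z' hz'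
        rw [hg2 j _ z' (fun y hy => hz' ⟨y, hy⟩), mul_zero]
      · intro y
        rw [hg1]
    rw [hs]
    by_cases hz : ∃ y, κ j y = z
    · obtain ⟨y0, rfl⟩ := hz
      exact congrFun hx y0
    · apply Finset.sum_eq_zero
      intro y _
      rw [hT j y z (fun y' hy' => hz ⟨y', hy'⟩), zero_mul]
  have hf : ∀ x, f x ∈ kerM T := by
    intro x
    rw [mem_kerM, hf0, Matrix.mulVec_sum]
    exact Finset.sum_eq_zero fun j _ => hker j (x j)
  have hinj : Function.Injective f := by
    intro x y hxy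
    funext j
    apply Subtype.ext
    funext t
    have h1 := congrFun hxy (κ j t)
    rw [hf0, hf0, Finset.sum_apply, Finset.sum_apply, Finset.sum_eq_single j,
      Finset.sum_eq_single j, hg1, hg1] at h1
    · exact h1
    · intro i _ hi
      exact hg2 i _ _ (fun y' hy' => hi (hdis i j y' t hy'))
    · simp
    · intro i _ hi
      exact hg2 i _ _ (fun y' hy' => hi (hdis i j y' t hy'))
    · simp
  have h4 := LinearMap.finrank_le_finrank_of_injective (f := f.codRestrict _ hf)
    (fun x y hxy => hinj (congrArg Subtype.val hxy))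
  rw [Module.finrank_pi_fintype] at h4
  exact h4

end SumKer

section Main

variable {I X R B M : Type} {N : ℕ} [DecidableEq R] [DecidableEq B] [DecidableEq M]

/-- the parameters with a given variable -/
def kp (var : R → X) (bvar : B → X) (x : X) :
    (Fin N × {r : R // var r = x}) ⊕ {b : B // bvar b = x} → Zt R B N :=
  Sum.map (Prod.map id Subtype.val) Subtype.val

lemma kp_injective (var : R → X) (bvar : B → X) (x : X) :
    Function.Injective (kp (N := N) var bvar x) :=
  Function.Injective.sumMap (Function.Injective.prodMap Function.injective_id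
    Subtype.val_injective) Subtype.val_injective

lemma zv_kp (var : R → X) (bvar : B → X) (x : X) (y) :
    zv var bvar (kp (N := N) var bvar x y) = x := by
  rcases y with ⟨p, r⟩ | b
  · exact r.2
  · exact b.2

lemma exists_kp {var : R → X} {bvar : B → X} {x : X} {z : Zt R B N} (h : zv var bvar z = x) :
    ∃ y, kp var bvar x y = z := by
  rcases z with ⟨p, r⟩ | b
  · exact ⟨Sum.inl (p, ⟨r, h⟩), rfl⟩
  · exact ⟨Sum.inr ⟨b, h⟩, rfl⟩

lemma Pb_kp (rel : R → I) (sg : R → Bool) (var : R → X) (bvar : B → X) (p : I → UU N) (x : X) :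
    (Pb rel sg p).submatrix (kp var bvar x) (kp var bvar x) =
      bd {b : B // bvar b = x} (fun r : {r : R // var r = x} =>
        ((spow (p (rel r.1)) (sg r.1) : UU N) : Matrix (Fin N) (Fin N) ℂ)) := by
  ext a b
  rcases a with ⟨q, r⟩ | s <;> rcases b with ⟨q', r'⟩ | s'
  · simp only [Matrix.submatrix_apply, kp, Sum.map_inl, Prod.map, Pb, bd,
      Matrix.fromBlocks_apply₁₁, Matrix.blockDiagonal_apply, Subtype.ext_iff, id]
  · simp [kp, Pb, bd]
  · simp [kp, Pb, bd]
  · simp [kp, Pb, bd, Matrix.one_apply, Subtype.ext_iff]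

lemma Pb_eq_zero (rel : R → I) (sg : R → Bool) (var : R → X) (bvar : B → X) (p : I → UU N)
    {z z' : Zt R B N} (h : zv var bvar z ≠ zv var bvar z') : Pb rel sg p z z' = 0 := by
  rcases z with ⟨q, r⟩ | s <;> rcases z' with ⟨q', r'⟩ | s'
  · have : r ≠ r' := by
      rintro rfl
      exact h rfl
    simp [Pb, bd, Matrix.blockDiagonal_apply, this]
  · simp [Pb, bd]
  · simp [Pb, bd]
  · have : s ≠ s' := by
      rintro rfl
      exact h rfl
    simp [Pb, bd, this]

lemma Hb_eq_zero {var : R → X} {sg : R → Bool} {bvar : B → X} {ι : Dt R B M N → Dt R B M N}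
    {ζ : Dt R B M N → ℂ} (h : Match var sg bvar ι ζ)
    {z z' : Zt R B N} (hz : zv var bvar z ≠ zv var bvar z') : Hb sg ι ζ z z' = 0 := by
  unfold Hb
  rw [Matrix.of_apply, if_neg]
  intro hh
  have h1 := congrArg (lab var sg bvar) hh
  rw [h.labi, lab_xd, lab_yd] at h1
  simp only [Option.map_some, Bool.not_true, Option.some.injEq, Prod.mk.injEq, and_true] at h1
  exact hz h1.symm

lemma yd_injective (sg : R → Bool) : Function.Injective (yd sg : Zt R B N → Dt R B M N) := by
  intro z z' h
  have := (allD_bij (M := M) sg).1 (a₁ := Sum.inl (Sum.inr z)) (a₂ := Sum.inl (Sum.inr z')) h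
  simpa using this

lemma xd_injective (sg : R → Bool) : Function.Injective (xd sg : Zt R B N → Dt R B M N) := by
  intro z z' h
  have := (allD_bij (M := M) sg).1 (a₁ := Sum.inl (Sum.inl z)) (a₂ := Sum.inl (Sum.inl z')) h
  simpa using this

lemma Hb_kp_unitary [Fintype R] [Fintype B] {var : R → X} {sg : R → Bool} {bvar : B → X}
    [DecidableEq X]
    {ι : Dt R B M N → Dt R B M N}
    {ζ : Dt R B M N → ℂ} (h : Match var sg bvar ι ζ) (x : X) :
    (Hb sg ι ζ).submatrix (kp var bvar x) (kp var bvar x) ∈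
      Matrix.unitaryGroup ((Fin N × {r : R // var r = x}) ⊕ {b : B // bvar b = x}) ℂ := by
  rw [Matrix.mem_unitaryGroup_iff]
  ext a b
  rw [Matrix.mul_apply]
  obtain ⟨z0, hz0, hz0'⟩ : ∃ z, yd sg z = ι (xd sg (kp var bvar x a)) ∧ zv var bvar z = x := by
    apply exists_yd
    rw [h.labi, lab_xd, zv_kp]
    rfl
  obtain ⟨v0, hv0⟩ := exists_kp hz0'
  rw [Finset.sum_eq_single v0]
  · simp only [Matrix.submatrix_apply, Matrix.star_apply, Hb, Matrix.of_apply, hv0]
    rw [if_pos hz0]
    by_cases hab : a = b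
    · subst hab
      rw [if_pos hz0, Matrix.one_apply_eq, mul_comm, h.norm]
    · rw [if_neg, star_zero, mul_zero, Matrix.one_apply_ne hab]
      intro hh
      apply hab
      have h1 : xd (M := M) sg (kp var bvar x a) = xd sg (kp var bvar x b) := by
        rw [← h.inv (xd sg (kp var bvar x a)), ← h.inv (xd sg (kp var bvar x b)), ← hh, ← hz0]
      exact kp_injective var bvar x (xd_injective sg h1)
  · intro v _ hv
    simp only [Matrix.submatrix_apply, Hb, Matrix.of_apply]
    rw [if_neg, zero_mul]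
    intro hh
    apply hv
    apply kp_injective var bvar x
    apply yd_injective (M := M) sg
    rw [hh, hv0, hz0]
  · simp

lemma PiMat_mul_self [Fintype R] [Fintype B] [Fintype M] (sg : R → Bool) (rel : R → I)
    (p : I → UU N) : PiMat (B := B) (M := M) rel p * PiMat rel p = 1 := by
  let Ψ : (Zt R B N ⊕ Zt R B N) ⊕ M ≃ Dt R B M N := Equiv.ofBijective _ (allD_bij sg)
  have h1 : (PiMat (B := B) (M := M) rel p * PiMat rel p).submatrix Ψ Ψ = 1 := by
    rw [← Matrix.submatrix_mul_equiv _ _ Ψ Ψ Ψ]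
    show (PiMat rel p).submatrix (allD sg) (allD sg) *
      (PiMat rel p).submatrix (allD sg) (allD sg) = _
    rw [PiMat_blocks rel sg p, Matrix.fromBlocks_multiply, Matrix.fromBlocks_multiply]
    simp [Pb_mul_star, star_mul_Pb]
  have h2 := congrArg (fun A => A.submatrix Ψ.symm Ψ.symm) h1
  simpa using h2

lemma PiMat_star (sg : R → Bool) (rel : R → I)
    (p : I → UU N) : (PiMat (B := B) (M := M) rel p)ᴴ = PiMat rel p := by
  let Ψ : (Zt R B N ⊕ Zt R B N) ⊕ M ≃ Dt R B M N := Equiv.ofBijective _ (allD_bij sg)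
  have h1 : (PiMat (B := B) (M := M) rel p)ᴴ.submatrix Ψ Ψ = (PiMat rel p).submatrix Ψ Ψ := by
    rw [← Matrix.conjTranspose_submatrix]
    show ((PiMat rel p).submatrix (allD sg) (allD sg))ᴴ =
      (PiMat rel p).submatrix (allD sg) (allD sg)
    rw [PiMat_blocks rel sg p, Matrix.fromBlocks_conjTranspose, Matrix.fromBlocks_conjTranspose]
    simp
  have h2 := congrArg (fun A => A.submatrix Ψ.symm Ψ.symm) h1
  simpa using h2

lemma Imat_star {D : Type} [DecidableEq D] {ι : D → D} {ζ : D → ℂ} (hinv : ∀ d, ι (ι d) = d)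
    (hconj : ∀ d, ζ (ι d) = star (ζ d)) : (Imat ι ζ)ᴴ = Imat ι ζ := by
  ext x y
  simp only [Matrix.conjTranspose_apply, Imat, Matrix.of_apply]
  by_cases h : x = ι y
  · have h2 : y = ι x := by rw [h, hinv]
    rw [if_pos h, if_pos h2, h, hconj]
  · have h2 : ¬ y = ι x := fun h2 => h (by rw [h2, hinv])
    rw [if_neg h, if_neg h2, star_zero]

lemma Imat_mul_self {D : Type} [Fintype D] [DecidableEq D] {ι : D → D} {ζ : D → ℂ}
    (hinv : ∀ d, ι (ι d) = d) (hconj : ∀ d, ζ (ι d) = star (ζ d))
    (hnorm : ∀ d, star (ζ d) * ζ d = 1) : Imat ι ζ * Imat ι ζ = 1 := by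
  ext x y
  rw [Matrix.mul_apply, Finset.sum_eq_single (ι x)]
  · simp only [Imat, Matrix.of_apply, if_true, hinv, Matrix.one_apply]
    by_cases h : x = y
    · rw [if_pos h.symm, if_pos h, hconj, mul_comm, hnorm]
    · rw [if_neg (fun h' => h h'.symm), if_neg h, mul_zero]
  · intro z _ hz
    simp [Imat, hz]
  · simp

/-- **T2 at the level of darts.** -/
theorem dart_T2 [Fintype I] [DecidableEq I] [Fintype X] [DecidableEq X] [Fintype R] [Fintype B]
    [Fintype M] (hSol : T2.SolStmt I) (rel : R → I) (var : R → X) (sg : R → Bool) (bvar : B → X)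
    (hrank : (Matrix.of fun (i : I) (x : X) =>
      ((∑ r : R, if rel r = i ∧ var r = x then sgn (sg r) else 0 : ℤ) : ℚ)).rank =
        Fintype.card I)
    (ι : Dt R B M N → Dt R B M N) (ζ : Dt R B M N → ℂ) (h : Match var sg bvar ι ζ) :
    ∃ p : I → UU N, 2 * (N * Fintype.card I) + Fintype.card M ≤
      finrank ℂ (LinearMap.ker (Matrix.toLin' (PiMat rel p * Imat ι ζ - 1))) := by
  classical
  obtain ⟨c, hc, hdet⟩ := exists_cols _ hrank
  obtain ⟨p, hp⟩ := T2_std (fun L => T2.core_of_sol hSol N L)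
    (fun j => {r : R // var r = c j}) (fun j => {b : B // bvar b = c j})
    (fun j r => rel r.1) (fun j r => sg r.1)
    (fun j => (Hb sg ι ζ).submatrix (kp var bvar (c j)) (kp var bvar (c j)))
    (fun j => Hb_kp_unitary h (c j)) (by
      intro h0
      apply hdet
      have h1 : ((Matrix.of fun (i : I) (x : X) =>
          ((∑ r : R, if rel r = i ∧ var r = x then sgn (sg r) else 0 : ℤ) : ℚ)).submatrix id c) =
          ((Matrix.of fun (j : I) (i : I) => ∑ o : {r : R // var r = c j},
            if rel o.1 = i then sgn (sg o.1) else 0 : Matrix I I ℤ).map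
              (Int.castRingHom ℚ))ᵀ := by
        ext i j
        simp only [Matrix.submatrix_apply, Matrix.of_apply, id, Matrix.transpose_apply,
          Matrix.map_apply, Int.coe_castRingHom]
        congr 1
        symm
        apply Fintype.sum_of_injective Subtype.val Subtype.val_injective
        · intro r hr
          rw [if_neg]
          rintro ⟨_, h2⟩
          exact hr ⟨⟨r, h2⟩, rfl⟩
        · intro o
          simp [o.2]
      rw [h1, Matrix.det_transpose, ← RingHom.mapMatrix_apply, ← RingHom.map_det, h0, map_zero])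
  refine ⟨p, ?_⟩
  have h1 : N * Fintype.card I ≤ finrank ℂ (kerM (Hb sg ι ζ - Pb rel sg p)) := by
    have h2 := sum_finrank_le (fun j => kp (N := N) var bvar (c j))
      (fun j => kp_injective var bvar (c j))
      (fun j j' y y' hh => hc (by rw [← zv_kp var bvar (c j) y, hh, zv_kp]))
      (Hb sg ι ζ - Pb rel sg p) (fun j y z hz => by
        have hne : zv var bvar z ≠ zv var bvar (kp var bvar (c j) y) := by
          rw [zv_kp]
          intro hh
          obtain ⟨y', hy'⟩ := exists_kp hh
          exact hz y' hy'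
        rw [Matrix.sub_apply, Hb_eq_zero h hne, Pb_eq_zero rel sg var bvar p hne, sub_zero])
    refine le_trans ?_ h2
    rw [mul_comm, ← smul_eq_mul, ← Finset.card_univ, ← Finset.sum_const]
    apply Finset.sum_le_sum
    intro j _
    have h3 := hp j
    rw [← Pb_kp rel sg var bvar p (c j), sub_submatrix'] at h3
    exact h3
  let Ψ : (Zt R B N ⊕ Zt R B N) ⊕ M ≃ Dt R B M N := Equiv.ofBijective _ (allD_bij sg)
  have h2 : (Imat ι ζ - PiMat rel p).submatrix Ψ Ψ =
      Matrix.fromBlocks (Matrix.fromBlocks 0 (Hb sg ι ζ - Pb rel sg p)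
        (Hb sg ι ζ - Pb rel sg p)ᴴ 0) 0 0 (0 : Matrix M M ℂ) := by
    rw [← sub_submatrix']
    show (Imat ι ζ).submatrix (allD sg) (allD sg) - (PiMat rel p).submatrix (allD sg) (allD sg) = _
    rw [Imat_blocks h, PiMat_blocks rel sg p]
    ext a b
    rcases a with (a | a) | a <;> rcases b with (b | b) | b <;> simp
  have h3 := finrank_kerM_blocks (M := M) (Hb sg ι ζ - Pb rel sg p)
  rw [← h2, finrank_kerM_submatrix] at h3
  have h4 : kerM (Imat ι ζ - PiMat rel p) ≤
      LinearMap.ker (Matrix.toLin' (PiMat rel p * Imat ι ζ - 1)) := by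
    intro u hu
    rw [mem_kerM, Matrix.sub_mulVec, sub_eq_zero] at hu
    rw [LinearMap.mem_ker, Matrix.toLin'_apply, Matrix.sub_mulVec, ← Matrix.mulVec_mulVec, hu,
      Matrix.mulVec_mulVec, PiMat_mul_self sg rel p, sub_self]
  have h5 := Submodule.finrank_mono h4
  omega

end Main

end Vale.Agent.P174.H89
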