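import Mathlib

/-!
# P174: choice of columns with nonzero minor
-/

namespace Vale.Agent.P174.H89

open Matrix Module

/-- A rational matrix whose rank is its number of rows has a nonzero maximal minor. -/
theorem exists_cols {I X : Type} [Fintype I] [DecidableEq I] [Fintype X]
    (A : Matrix I X ℚ) (hA : A.rank = Fintype.card I) :
    ∃ c : I → X, Function.Injective c ∧ (A.submatrix id c).det ≠ 0 := by
  classical
  obtain ⟨κ, a, ha, hsp, hli⟩ := exists_linearIndependent' ℚ (A.col)
  have : Finite κ := Finite.of_injective a ha
  letI : Fintype κ := Fintype.ofFinite κ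
  have hcard : Fintype.card κ = Fintype.card I := by
    rw [← hA, Matrix.rank_eq_finrank_span_cols, ← hsp]
    exact (finrank_span_eq_card hli).symm
  let e : I ≃ κ := Fintype.equivOfCardEq hcard.symm
  refine ⟨a ∘ e, ha.comp e.injective, ?_⟩
  have h1 : LinearIndependent ℚ (A.submatrix id (a ∘ e)).col := by
    have : (A.submatrix id (a ∘ e)).col = (A.col ∘ a) ∘ e := by
      funext i
      rfl
    rw [this]
    exact hli.comp e e.injective
  rw [Matrix.linearIndependent_cols_iff_isUnit, Matrix.isUnit_iff_isUnit_det] at h1
  exact h1.ne_zero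

end Vale.Agent.P174.H89
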