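import Vale.Agent.P174.H89.KerS
import Vale.Agent.P174.H89.Cols

/-!
# P174, T2 at the level of darts
-/

namespace Vale.Agent.P174.H89

open Matrix Module

section Dart

variable {I X R B M : Type} {N : ℕ}

/-- darts: two copies of the relator letters for each of the `N` faces, the letters of the
bigons and the markers -/
abbrev Dt (R B M : Type) (N : ℕ) := (R × Bool × Fin N) ⊕ ((B × Bool) ⊕ M)

/-- label of a dart -/
def lab (var : R → X) (sg : R → Bool) (bvar : B → X) : Dt R B M N → Option (X × Bool)
  | Sum.inl (r, s, _) => some (var r, s == sg r)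
  | Sum.inr (Sum.inl (b, s)) => some (bvar b, s)
  | Sum.inr (Sum.inr _) => none

/-- pairing matrix -/
noncomputable def PiMat [DecidableEq R] [DecidableEq B] [DecidableEq M] (rel : R → I)
    (p : I → UU N) : Matrix (Dt R B M N) (Dt R B M N) ℂ :=
  Matrix.of fun x y => match x, y with
    | Sum.inl (r, s, a), Sum.inl (r', s', b) =>
      if r = r' then
        (if s = true ∧ s' = false then (p (rel r) : Matrix (Fin N) (Fin N) ℂ) a b
          else if s = false ∧ s' = true then star ((p (rel r) : Matrix (Fin N) (Fin N) ℂ) b a)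
          else 0)
      else 0
    | Sum.inr (Sum.inl (b, s)), Sum.inr (Sum.inl (b', s')) => if b = b' ∧ s' = !s then 1 else 0
    | Sum.inr (Sum.inr m), Sum.inr (Sum.inr m') => if m = m' then 1 else 0
    | _, _ => 0

/-- matching matrix with phases: the entry `(d, ι d)` is `z d` -/
def Imat {D : Type} [DecidableEq D] (ι : D → D) (z : D → ℂ) : Matrix D D ℂ :=
  Matrix.of fun x y => if y = ι x then z x else 0

/-- parameter type of the darts with positive label (or negative label) -/
abbrev Zt (R B : Type) (N : ℕ) := (Fin N × R) ⊕ B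

/-- darts with positive label -/
def xd (sg : R → Bool) : Zt R B N → Dt R B M N
  | Sum.inl (p, r) => Sum.inl (r, sg r, p)
  | Sum.inr b => Sum.inr (Sum.inl (b, true))

/-- darts with negative label -/
def yd (sg : R → Bool) : Zt R B N → Dt R B M N
  | Sum.inl (p, r) => Sum.inl (r, !(sg r), p)
  | Sum.inr b => Sum.inr (Sum.inl (b, false))

/-- variable of a parameter -/
def zv (var : R → X) (bvar : B → X) : Zt R B N → X
  | Sum.inl (_, r) => var r
  | Sum.inr b => bvar b

lemma lab_xd (var : R → X) (sg : R → Bool) (bvar : B → X) (z : Zt R B N) :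
    lab (M := M) var sg bvar (xd sg z) = some (zv var bvar z, true) := by
  rcases z with ⟨p, r⟩ | b <;> simp [lab, xd, zv]

lemma lab_yd (var : R → X) (sg : R → Bool) (bvar : B → X) (z : Zt R B N) :
    lab (M := M) var sg bvar (yd sg z) = some (zv var bvar z, false) := by
  rcases z with ⟨p, r⟩ | b
  · cases h : sg r <;> simp [lab, yd, zv, h]
  · simp [lab, yd, zv]

/-- all darts -/
def allD (sg : R → Bool) : (Zt R B N ⊕ Zt R B N) ⊕ M → Dt R B M N
  | Sum.inl (Sum.inl z) => xd sg z
  | Sum.inl (Sum.inr z) => yd sg z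
  | Sum.inr m => Sum.inr (Sum.inr m)

lemma allD_bij (sg : R → Bool) :
    Function.Bijective (allD sg : (Zt R B N ⊕ Zt R B N) ⊕ M → Dt R B M N) := by
  constructor
  · rintro (((⟨p, r⟩ | b) | (⟨p, r⟩ | b)) | m) (((⟨p', r'⟩ | b') | (⟨p', r'⟩ | b')) | m') h <;>
      simp [allD, xd, yd] at h ⊢
    all_goals first
      | (rcases h with ⟨rfl, h2⟩; simp at h2; simp [h2])
      | exact h
      | (rcases h with ⟨rfl, h2, h3⟩; simp at h2)
  · rintro (⟨r, s, p⟩ | ⟨b, s⟩ | m)
    · by_cases h : s = sg r
      · exact ⟨Sum.inl (Sum.inl (Sum.inl (p, r))), by simp [allD, xd, h]⟩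
      · refine ⟨Sum.inl (Sum.inr (Sum.inl (p, r))), ?_⟩
        have : s = !(sg r) := by
          cases s <;> cases h' : sg r <;> simp_all
        simp [allD, yd, this]
    · cases s
      · exact ⟨Sum.inl (Sum.inr (Sum.inr b)), rfl⟩
      · exact ⟨Sum.inl (Sum.inl (Sum.inr b)), rfl⟩
    · exact ⟨Sum.inr m, rfl⟩

lemma exists_yd {var : R → X} {sg : R → Bool} {bvar : B → X} {d : Dt R B M N} {x : X}
    (h : lab var sg bvar d = some (x, false)) : ∃ z, yd sg z = d ∧ zv var bvar z = x := by
  obtain ⟨((z | z) | m), rfl⟩ := (allD_bij sg).2 d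
  · rw [allD, lab_xd] at h
    simp at h
  · rw [allD, lab_yd] at h
    simp only [Option.some.injEq, Prod.mk.injEq, and_true] at h
    exact ⟨z, rfl, h⟩
  · simp [allD, lab] at h

lemma exists_xd {var : R → X} {sg : R → Bool} {bvar : B → X} {d : Dt R B M N} {x : X}
    (h : lab var sg bvar d = some (x, true)) : ∃ z, xd sg z = d ∧ zv var bvar z = x := by
  obtain ⟨((z | z) | m), rfl⟩ := (allD_bij sg).2 d
  · rw [allD, lab_xd] at h
    simp only [Option.some.injEq, Prod.mk.injEq, and_true] at h
    exact ⟨z, rfl, h⟩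
  · rw [allD, lab_yd] at h
    simp at h
  · simp [allD, lab] at h

end Dart

end Vale.Agent.P174.H89
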