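import Vale.Agent.P174.H89.Dart

/-!
# P174, T2 at the level of darts: block form
-/

namespace Vale.Agent.P174.H89

open Matrix Module

section Blocks

variable {I X R B M : Type} {N : ℕ} [DecidableEq R] [DecidableEq B] [DecidableEq M]

lemma spow_entry (u : UU N) (b : Bool) (i j : Fin N) :
    ((spow u b : UU N) : Matrix (Fin N) (Fin N) ℂ) i j =
      if b then (u : Matrix (Fin N) (Fin N) ℂ) i j else star ((u : Matrix (Fin N) (Fin N) ℂ) j i) := by
  rw [spow_coe]
  cases b <;> simp [Matrix.conjTranspose_apply]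

/-- the block `X ← Y` of the pairing matrix -/
noncomputable def Pb (rel : R → I) (sg : R → Bool) (p : I → UU N) :
    Matrix (Zt R B N) (Zt R B N) ℂ :=
  bd B (fun r => ((spow (p (rel r)) (sg r) : UU N) : Matrix (Fin N) (Fin N) ℂ))

lemma Pb_mul_star [Fintype R] [Fintype B] (rel : R → I) (sg : R → Bool) (p : I → UU N) :
    Pb (B := B) rel sg p * (Pb rel sg p)ᴴ = 1 := by
  unfold Pb
  rw [bd_star, bd_mul]
  have : ∀ r, ((spow (p (rel r)) (sg r) : UU N) : Matrix (Fin N) (Fin N) ℂ) *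
      ((spow (p (rel r)) (sg r) : UU N) : Matrix (Fin N) (Fin N) ℂ)ᴴ = 1 := fun r =>
    Matrix.mem_unitaryGroup_iff.1 (spow (p (rel r)) (sg r)).2
  simp only [this]
  exact bd_one

lemma star_mul_Pb [Fintype R] [Fintype B] (rel : R → I) (sg : R → Bool) (p : I → UU N) :
    (Pb (B := B) rel sg p)ᴴ * Pb rel sg p = 1 := by
  unfold Pb
  rw [bd_star, bd_mul]
  have : ∀ r, ((spow (p (rel r)) (sg r) : UU N) : Matrix (Fin N) (Fin N) ℂ)ᴴ *
      ((spow (p (rel r)) (sg r) : UU N) : Matrix (Fin N) (Fin N) ℂ) = 1 := fun r =>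
    Matrix.mem_unitaryGroup_iff'.1 (spow (p (rel r)) (sg r)).2
  simp only [this]
  exact bd_one

lemma PiMat_blocks (rel : R → I) (sg : R → Bool) (p : I → UU N) :
    (PiMat (B := B) (M := M) rel p).submatrix (allD sg) (allD sg) =
      Matrix.fromBlocks (Matrix.fromBlocks 0 (Pb rel sg p) (Pb rel sg p)ᴴ 0) 0 0 1 := by
  ext x y
  rw [Matrix.submatrix_apply]
  rcases x with ((⟨a, r⟩ | b) | (⟨a, r⟩ | b)) | m <;>
  rcases y with ((⟨a', r'⟩ | b') | (⟨a', r'⟩ | b')) | m'
  all_goals
    simp only [allD, xd, yd, PiMat, Matrix.of_apply, Matrix.fromBlocks_apply₁₁,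
      Matrix.fromBlocks_apply₁₂, Matrix.fromBlocks_apply₂₁, Matrix.fromBlocks_apply₂₂,
      Matrix.zero_apply, Pb, bd, Matrix.conjTranspose_apply, Matrix.blockDiagonal_apply,
      Matrix.one_apply, spow_entry]
  all_goals try
    (by_cases hr : r = r'
     · subst hr
       cases h : sg r <;> simp
     · have hr' : ¬ r' = r := fun h => hr h.symm
       simp [hr, hr'])
  all_goals try
    (by_cases hb : b = b'
     · subst hb
       simp
     · have hb' : ¬ b' = b := fun h => hb h.symm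
       simp [hb, hb'])
  all_goals simp

/-- the block `X ← Y` of the matching matrix -/
noncomputable def Hb (sg : R → Bool) (ι : Dt R B M N → Dt R B M N) (ζ : Dt R B M N → ℂ) :
    Matrix (Zt R B N) (Zt R B N) ℂ :=
  Matrix.of fun z z' => if yd sg z' = ι (xd sg z) then ζ (xd sg z) else 0

/-- hypotheses on the matching -/
structure Match (var : R → X) (sg : R → Bool) (bvar : B → X) (ι : Dt R B M N → Dt R B M N)
    (ζ : Dt R B M N → ℂ) : Prop where
  inv : ∀ d, ι (ι d) = d
  labi : ∀ d, lab var sg bvar (ι d) = (lab var sg bvar d).map (fun x => (x.1, !x.2))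
  conj : ∀ d, ζ (ι d) = star (ζ d)
  norm : ∀ d, star (ζ d) * ζ d = 1
  mark : ∀ m, ι (Sum.inr (Sum.inr m)) = Sum.inr (Sum.inr m)
  zmark : ∀ m, ζ (Sum.inr (Sum.inr m)) = 1

lemma Imat_blocks {var : R → X} {sg : R → Bool} {bvar : B → X} {ι : Dt R B M N → Dt R B M N}
    {ζ : Dt R B M N → ℂ} (h : Match var sg bvar ι ζ) :
    (Imat ι ζ).submatrix (allD sg) (allD sg) =
      Matrix.fromBlocks (Matrix.fromBlocks 0 (Hb sg ι ζ) (Hb sg ι ζ)ᴴ 0) 0 0 1 := by
  have hxx : ∀ z z', xd sg z' ≠ ι (xd sg z) := by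
    intro z z' hh
    have h1 := congrArg (H89.lab var sg bvar) hh
    rw [h.labi, lab_xd, lab_xd] at h1
    simp at h1
  have hyy : ∀ z z', yd sg z' ≠ ι (yd sg z) := by
    intro z z' hh
    have h1 := congrArg (H89.lab var sg bvar) hh
    rw [h.labi, lab_yd, lab_yd] at h1
    simp at h1
  have hmx : ∀ z m, (Sum.inr (Sum.inr m) : Dt R B M N) ≠ ι (xd sg z) := by
    intro z m hh
    have h1 := congrArg (H89.lab var sg bvar) hh
    rw [h.labi, lab_xd] at h1
    simp [H89.lab] at h1
  have hmy : ∀ z m, (Sum.inr (Sum.inr m) : Dt R B M N) ≠ ι (yd sg z) := by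
    intro z m hh
    have h1 := congrArg (H89.lab var sg bvar) hh
    rw [h.labi, lab_yd] at h1
    simp [H89.lab] at h1
  have hxm : ∀ z m, xd sg z ≠ (Sum.inr (Sum.inr m) : Dt R B M N) := by
    intro z m hh
    rcases z with ⟨p, r⟩ | b <;> simp [xd] at hh
  have hym : ∀ z m, yd sg z ≠ (Sum.inr (Sum.inr m) : Dt R B M N) := by
    intro z m hh
    rcases z with ⟨p, r⟩ | b <;> simp [yd] at hh
  ext x y
  rw [Matrix.submatrix_apply]
  rcases x with (z | z) | m <;> rcases y with (z' | z') | m'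
  · simp [allD, Imat, hxx]
  · simp [allD, Imat, Hb]
  · simp [allD, Imat, hmx]
  · simp only [allD, Imat, Hb, Matrix.of_apply, Matrix.fromBlocks_apply₁₁,
      Matrix.fromBlocks_apply₂₁, Matrix.conjTranspose_apply]
    by_cases hh : xd sg z' = ι (yd sg z)
    · have h2 : yd sg z = ι (xd sg z') := by rw [hh, h.inv]
      rw [if_pos hh, if_pos h2, hh, h.conj, star_star]
    · have h2 : ¬ yd sg z = ι (xd sg z') := fun h2 => hh (by rw [h2, h.inv])
      rw [if_neg hh, if_neg h2, star_zero]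
  · simp [allD, Imat, hyy]
  · simp [allD, Imat, hmy]
  · simp [allD, Imat, h.mark, hxm]
  · simp [allD, Imat, h.mark, hym]
  · simp only [allD, Imat, Matrix.of_apply, Matrix.fromBlocks_apply₂₂, h.mark, h.zmark,
      Matrix.one_apply, Sum.inr.injEq]
    by_cases hm : m = m'
    · subst hm
      simp
    · have hm' : ¬ m' = m := fun h => hm h.symm
      simp [hm, hm']

end Blocks

section KerBlocks

open ComplexOrder in
/-- kernel of a block matrix of the shape of ours -/
lemma finrank_kerM_blocks {Z M : Type*} [Fintype Z] [Fintype M] [DecidableEq M]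
    (T : Matrix Z Z ℂ) :
    2 * finrank ℂ (kerM T) + Fintype.card M ≤
      finrank ℂ (kerM (Matrix.fromBlocks (Matrix.fromBlocks 0 T Tᴴ 0) 0 0
        (0 : Matrix M M ℂ))) := by
  let W : Matrix ((Z ⊕ Z) ⊕ M) ((Z ⊕ Z) ⊕ M) ℂ :=
    Matrix.fromBlocks (Matrix.fromBlocks 0 T Tᴴ 0) 0 0 (0 : Matrix M M ℂ)
  let f : ((kerM Tᴴ × kerM T) × (M → ℂ)) →ₗ[ℂ] ((Z ⊕ Z) ⊕ M → ℂ) :=
    { toFun := fun x => Sum.elim (Sum.elim x.1.1.1 x.1.2.1) x.2
      map_add' := by
        intro x y
        funext a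
        rcases a with (z | z) | m <;> simp
      map_smul' := by
        intro c x
        funext a
        rcases a with (z | z) | m <;> simp }
  have hf : ∀ x, f x ∈ kerM W := by
    intro x
    rw [mem_kerM]
    have h1 := (mem_kerM _ _).1 x.1.1.2
    have h2 := (mem_kerM _ _).1 x.1.2.2
    show Matrix.fromBlocks (Matrix.fromBlocks 0 T Tᴴ 0) 0 0 (0 : Matrix M M ℂ) *ᵥ
      (Sum.elim (Sum.elim x.1.1.1 x.1.2.1) x.2) = 0
    rw [Matrix.fromBlocks_mulVec]
    simp only [Sum.elim_comp_inl, Sum.elim_comp_inr]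
    rw [Matrix.fromBlocks_mulVec]
    simp only [Sum.elim_comp_inl, Sum.elim_comp_inr, h1, h2, Matrix.zero_mulVec, add_zero]
    funext a
    rcases a with (z | z) | m <;> simp
  have hinj : Function.Injective f := by
    intro x y hxy
    have h1 : ∀ z, x.1.1.1 z = y.1.1.1 z := fun z => congrFun hxy (Sum.inl (Sum.inl z))
    have h2 : ∀ z, x.1.2.1 z = y.1.2.1 z := fun z => congrFun hxy (Sum.inl (Sum.inr z))
    have h3 : ∀ m, x.2 m = y.2 m := fun m => congrFun hxy (Sum.inr m)
    exact Prod.ext (Prod.ext (Subtype.ext (funext h1)) (Subtype.ext (funext h2))) (funext h3)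
  have h4 := LinearMap.finrank_le_finrank_of_injective (f := f.codRestrict _ hf)
    (fun x y hxy => hinj (congrArg Subtype.val hxy))
  have h5 : finrank ℂ ((kerM Tᴴ × kerM T) × (M → ℂ)) =
      2 * finrank ℂ (kerM T) + Fintype.card M := by
    have hT : finrank ℂ (kerM Tᴴ) = finrank ℂ (kerM T) := by
      have a1 := LinearMap.finrank_range_add_finrank_ker (Matrix.mulVecLin T)
      have a2 := LinearMap.finrank_range_add_finrank_ker (Matrix.mulVecLin Tᴴ)
      have a3 : finrank ℂ (LinearMap.range (Matrix.mulVecLin Tᴴ)) =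
          finrank ℂ (LinearMap.range (Matrix.mulVecLin T)) := Matrix.rank_conjTranspose T
      show finrank ℂ (LinearMap.ker _) = finrank ℂ (LinearMap.ker _)
      omega
    rw [Module.finrank_prod, Module.finrank_prod, hT, Module.finrank_fintype_fun_eq_card]
    ring
  rw [h5] at h4
  exact h4

end KerBlocks

end Vale.Agent.P174.H89
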