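import Mathlib

/-!
# P174, endgame of T2: block permutations and the core statement
-/

namespace Vale.Agent.P174.H89

open Matrix

/-- the unitary group -/
abbrev UU (N : ℕ) := Matrix.unitaryGroup (Fin N) ℂ

/-- `π ↦ π ⊕ 1` -/
noncomputable def embM (N L : ℕ) (A : Matrix (Fin N) (Fin N) ℂ) : Matrix (Fin (N + L)) (Fin (N + L)) ℂ :=
  Matrix.reindex finSumFinEquiv finSumFinEquiv (Matrix.fromBlocks A 0 0 1)

/-- `s ↦ 1 ⊕ s` -/
noncomputable def embRM (N L : ℕ) (A : Matrix (Fin L) (Fin L) ℂ) : Matrix (Fin (N + L)) (Fin (N + L)) ℂ :=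
  Matrix.reindex finSumFinEquiv finSumFinEquiv (Matrix.fromBlocks 1 0 0 A)

lemma embM_mul {N L : ℕ} (A B : Matrix (Fin N) (Fin N) ℂ) :
    embM N L (A * B) = embM N L A * embM N L B := by
  unfold embM
  simp [Matrix.reindex_apply, Matrix.submatrix_mul_equiv, Matrix.fromBlocks_multiply]

lemma embM_one {N L : ℕ} : embM N L (1 : Matrix (Fin N) (Fin N) ℂ) = 1 := by
  unfold embM
  simp [Matrix.reindex_apply]

lemma embM_star {N L : ℕ} (A : Matrix (Fin N) (Fin N) ℂ) :
    star (embM N L A) = embM N L (star A) := by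
  unfold embM
  simp [Matrix.reindex_apply, Matrix.star_eq_conjTranspose, Matrix.fromBlocks_conjTranspose,
    Matrix.conjTranspose_submatrix]

lemma embRM_mul {N L : ℕ} (A B : Matrix (Fin L) (Fin L) ℂ) :
    embRM N L (A * B) = embRM N L A * embRM N L B := by
  unfold embRM
  simp [Matrix.reindex_apply, Matrix.submatrix_mul_equiv, Matrix.fromBlocks_multiply]

lemma embRM_one {N L : ℕ} : embRM N L (1 : Matrix (Fin L) (Fin L) ℂ) = 1 := by
  unfold embRM
  simp [Matrix.reindex_apply]

lemma embRM_star {N L : ℕ} (A : Matrix (Fin L) (Fin L) ℂ) :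
    star (embRM N L A) = embRM N L (star A) := by
  unfold embRM
  simp [Matrix.reindex_apply, Matrix.star_eq_conjTranspose, Matrix.fromBlocks_conjTranspose,
    Matrix.conjTranspose_submatrix]

/-- `π ↦ π ⊕ 1` on unitary groups -/
noncomputable def emb {N L : ℕ} (u : UU N) : UU (N + L) :=
  ⟨embM N L u, by
    rw [Matrix.mem_unitaryGroup_iff, embM_star, ← embM_mul]
    rw [show (u : Matrix (Fin N) (Fin N) ℂ) * star (u : Matrix (Fin N) (Fin N) ℂ) = 1 from
      Matrix.mem_unitaryGroup_iff.1 u.2, embM_one]⟩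

/-- `s ↦ 1 ⊕ s` on unitary groups -/
noncomputable def embR {N L : ℕ} (u : UU L) : UU (N + L) :=
  ⟨embRM N L u, by
    rw [Matrix.mem_unitaryGroup_iff, embRM_star, ← embRM_mul]
    rw [show (u : Matrix (Fin L) (Fin L) ℂ) * star (u : Matrix (Fin L) (Fin L) ℂ) = 1 from
      Matrix.mem_unitaryGroup_iff.1 u.2, embRM_one]⟩

/-- sign of an occurrence -/
def sgn (b : Bool) : ℤ := if b then 1 else -1

/-- signed power -/
noncomputable def spow {G : Type*} [Group G] (u : G) (b : Bool) : G := if b then u else u⁻¹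

/-- exponent matrix of a family of lists of occurrences -/
def expM {J Q : Type} [DecidableEq J] (O : J → List (J × Bool × Q)) : Matrix J J ℤ :=
  Matrix.of fun j i => ((O j).map (fun o => if o.1 = i then sgn o.2.1 else 0)).sum

/-- The corank Gerstenhaber-Rothaus statement (output of the T2 core). -/
def CoreJ (J : Type) [Fintype J] [DecidableEq J] (N L : ℕ) : Prop :=
  ∀ O : J → List (J × Bool × UU (N + L)),
    (expM O).det ≠ 0 → ∀ h : J → UU (N + L),
      ∃ (p : J → UU N) (v : J → UU (N + L)) (s : J → UU L), ∀ j,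
        ((O j).map (fun o => o.2.2 * spow (emb (L := L) (p o.1)) o.2.1 * (o.2.2)⁻¹)).prod *
          ((v j)⁻¹ * embR (s j) * v j) = h j

end Vale.Agent.P174.H89
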