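import Vale.Agent.P174.H89.Perm

/-!
# P174, endgame of T2: from the core statement to kernels
-/

namespace Vale.Agent.P174.H89

open Matrix Module

section KerGen

/-- kernel of a square complex matrix -/
noncomputable abbrev kerM {Z : Type*} [Fintype Z] (A : Matrix Z Z ℂ) : Submodule ℂ (Z → ℂ) :=
  LinearMap.ker (Matrix.mulVecLin A)

lemma mem_kerM {Z : Type*} [Fintype Z] (A : Matrix Z Z ℂ) (x : Z → ℂ) :
    x ∈ kerM A ↔ A *ᵥ x = 0 := by
  simp [kerM, LinearMap.mem_ker]

/-- inclusion of `ℂ^N` in `ℂ^(N+L)` -/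
noncomputable def injN (N L : ℕ) : (Fin N → ℂ) →ₗ[ℂ] (Fin (N + L) → ℂ) where
  toFun x := fun a => Sum.elim x (fun _ => 0) (finSumFinEquiv.symm a)
  map_add' x y := by
    funext a
    rcases h : finSumFinEquiv.symm a with p | l <;> simp [h]
  map_smul' c x := by
    funext a
    rcases h : finSumFinEquiv.symm a with p | l <;> simp [h]

lemma injN_injective (N L : ℕ) : Function.Injective (injN N L) := by
  intro x y h
  funext p
  have := congrFun h (finSumFinEquiv (Sum.inl p))
  simpa [injN] using this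

lemma embRM_mulVec_injN {N L : ℕ} (s : Matrix (Fin L) (Fin L) ℂ) (x : Fin N → ℂ) :
    embRM N L s *ᵥ injN N L x = injN N L x := by
  unfold embRM
  have h1 : injN N L x = (Sum.elim x (fun _ => 0)) ∘ finSumFinEquiv.symm := rfl
  rw [h1, Matrix.reindex_apply, Matrix.submatrix_mulVec_equiv]
  have h2 : (Sum.elim x (fun _ : Fin L => (0 : ℂ)) ∘ finSumFinEquiv.symm) ∘ finSumFinEquiv =
      Sum.elim x (fun _ => 0) := by
    funext a
    simp
  have h3 : (Sum.elim x (fun _ : Fin L => (0 : ℂ)) ∘ finSumFinEquiv.symm) ∘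
      (finSumFinEquiv.symm : Fin (N + L) ≃ Fin N ⊕ Fin L).symm = Sum.elim x (fun _ => 0) := by
    funext a
    simp
  rw [h3, Matrix.fromBlocks_mulVec]
  funext a
  rcases h : finSumFinEquiv.symm a with p | l <;> simp [h, Function.comp_def]
  exact congrFun (Matrix.mulVec_zero s) l

lemma finrank_of_factor {N L : ℕ} (h P v : UU (N + L)) (s : UU L)
    (hh : P * (v⁻¹ * embR s * v) = h) :
    N ≤ finrank ℂ (kerM ((h : Matrix (Fin (N + L)) (Fin (N + L)) ℂ) -
      (P : Matrix (Fin (N + L)) (Fin (N + L)) ℂ))) := by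
  have hv1 : (v : Matrix (Fin (N + L)) (Fin (N + L)) ℂ) *
      star (v : Matrix (Fin (N + L)) (Fin (N + L)) ℂ) = 1 := Matrix.mem_unitaryGroup_iff.1 v.2
  have hv2 : star (v : Matrix (Fin (N + L)) (Fin (N + L)) ℂ) *
      (v : Matrix (Fin (N + L)) (Fin (N + L)) ℂ) = 1 := Matrix.mem_unitaryGroup_iff'.1 v.2
  have hm : (h : Matrix (Fin (N + L)) (Fin (N + L)) ℂ) =
      (P : Matrix (Fin (N + L)) (Fin (N + L)) ℂ) *
        (star (v : Matrix (Fin (N + L)) (Fin (N + L)) ℂ) * embRM N L s *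
          (v : Matrix (Fin (N + L)) (Fin (N + L)) ℂ)) := by
    rw [← hh]
    rfl
  let f : (Fin N → ℂ) →ₗ[ℂ] (Fin (N + L) → ℂ) :=
    (Matrix.mulVecLin (star (v : Matrix (Fin (N + L)) (Fin (N + L)) ℂ))).comp (injN N L)
  have hf : ∀ x, f x ∈ kerM ((h : Matrix (Fin (N + L)) (Fin (N + L)) ℂ) -
      (P : Matrix (Fin (N + L)) (Fin (N + L)) ℂ)) := by
    intro x
    rw [mem_kerM]
    show ((h : Matrix (Fin (N + L)) (Fin (N + L)) ℂ) -
      (P : Matrix (Fin (N + L)) (Fin (N + L)) ℂ)) *ᵥ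
        (star (v : Matrix (Fin (N + L)) (Fin (N + L)) ℂ) *ᵥ injN N L x) = 0
    rw [Matrix.sub_mulVec, hm, Matrix.mulVec_mulVec]
    have : (P : Matrix (Fin (N + L)) (Fin (N + L)) ℂ) *
        (star (v : Matrix (Fin (N + L)) (Fin (N + L)) ℂ) * embRM N L s *
          (v : Matrix (Fin (N + L)) (Fin (N + L)) ℂ)) *
        star (v : Matrix (Fin (N + L)) (Fin (N + L)) ℂ) =
        (P : Matrix (Fin (N + L)) (Fin (N + L)) ℂ) *
        (star (v : Matrix (Fin (N + L)) (Fin (N + L)) ℂ) * embRM N L s) := by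
      rw [Matrix.mul_assoc, Matrix.mul_assoc, hv1, Matrix.mul_one]
    rw [this, ← Matrix.mulVec_mulVec, ← Matrix.mulVec_mulVec, embRM_mulVec_injN, sub_self]
  have hinj : Function.Injective f := by
    intro x y hxy
    have h1 : star (v : Matrix (Fin (N + L)) (Fin (N + L)) ℂ) *ᵥ injN N L x =
        star (v : Matrix (Fin (N + L)) (Fin (N + L)) ℂ) *ᵥ injN N L y := hxy
    have h2 := congrArg (fun z => (v : Matrix (Fin (N + L)) (Fin (N + L)) ℂ) *ᵥ z) h1
    simp only [Matrix.mulVec_mulVec, hv1, Matrix.one_mulVec] at h2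
    exact injN_injective N L h2
  have := LinearMap.finrank_le_finrank_of_injective (f := f.codRestrict _ hf)
    (fun x y hxy => hinj (congrArg Subtype.val hxy))
  simpa using this

lemma finrank_kerM_submatrix {Z Z' : Type*} [Fintype Z] [Fintype Z'] (e : Z' ≃ Z)
    (A : Matrix Z Z ℂ) : finrank ℂ (kerM (A.submatrix e e)) = finrank ℂ (kerM A) := by
  have h1 := LinearMap.finrank_range_add_finrank_ker (Matrix.mulVecLin A)
  have h2 := LinearMap.finrank_range_add_finrank_ker (Matrix.mulVecLin (A.submatrix e e))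
  have h3 : finrank ℂ (LinearMap.range (Matrix.mulVecLin (A.submatrix e e))) =
      finrank ℂ (LinearMap.range (Matrix.mulVecLin A)) := by
    have := Matrix.rank_submatrix A e e
    exact this
  rw [h3] at h2
  simp only [Module.finrank_fintype_fun_eq_card] at h1 h2
  rw [Fintype.card_congr e] at h2
  show finrank ℂ (LinearMap.ker _) = finrank ℂ (LinearMap.ker _)
  omega

lemma finrank_kerM_pad {Z T : Type*} [Fintype Z] [Fintype T] [DecidableEq T]
    (A : Matrix Z Z ℂ) :
    finrank ℂ (kerM (Matrix.fromBlocks A 0 0 ((-2 : ℂ) • (1 : Matrix T T ℂ)))) ≤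
      finrank ℂ (kerM A) := by
  let B : Matrix (Z ⊕ T) (Z ⊕ T) ℂ := Matrix.fromBlocks A 0 0 ((-2 : ℂ) • (1 : Matrix T T ℂ))
  let f : (Z ⊕ T → ℂ) →ₗ[ℂ] (Z → ℂ) := LinearMap.funLeft ℂ ℂ Sum.inl
  have hB : ∀ x ∈ kerM B, A *ᵥ (x ∘ Sum.inl) = 0 ∧ ∀ t, x (Sum.inr t) = 0 := by
    intro x hx
    rw [mem_kerM] at hx
    rw [Matrix.fromBlocks_mulVec] at hx
    constructor
    · funext z
      have := congrFun hx (Sum.inl z)
      simpa using this
    · intro t
      have := congrFun hx (Sum.inr t)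
      simp only [Sum.elim_inr, Matrix.zero_mulVec, zero_add, Matrix.smul_mulVec,
        Matrix.one_mulVec, Pi.smul_apply, Function.comp_apply, Pi.zero_apply, smul_eq_mul,
        mul_eq_zero] at this
      rcases this with h | h
      · norm_num at h
      · exact h
  let g : kerM B →ₗ[ℂ] kerM A := (f.comp (kerM B).subtype).codRestrict _ (by
    intro x
    rw [mem_kerM]
    exact (hB x.1 x.2).1)
  have hg : Function.Injective g := by
    intro x y hxy
    apply Subtype.ext
    funext a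
    rcases a with z | t
    · exact congrFun (congrArg Subtype.val hxy) z
    · rw [(hB x.1 x.2).2 t, (hB y.1 y.2).2 t]
  exact LinearMap.finrank_le_finrank_of_injective hg

end KerGen

section Std

variable {N : ℕ}

lemma sub_submatrix' {Z Z' : Type*} (A B : Matrix Z Z ℂ) (e : Z' → Z) :
    A.submatrix e e - B.submatrix e e = (A - B).submatrix e e := rfl

/-- One equation: from a solution in the big unitary group to the kernel. -/
lemma finrank_one {L : ℕ} {O S T : Type} [Fintype O] [DecidableEq O] [Fintype S] [DecidableEq S]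
    [Fintype T] [DecidableEq T] (e : (Fin N × O) ⊕ (S ⊕ T) ≃ Fin (N + L)) (u : O → UU N)
    (h : Matrix ((Fin N × O) ⊕ S) ((Fin N × O) ⊕ S) ℂ)
    (H : UU (N + L))
    (hH : (H : Matrix (Fin (N + L)) (Fin (N + L)) ℂ) =
      ((Matrix.fromBlocks h 0 0 (-1 : Matrix T T ℂ)).submatrix
        (Equiv.sumAssoc _ _ _).symm (Equiv.sumAssoc _ _ _).symm).submatrix e.symm e.symm)
    (v : UU (N + L)) (s : UU L)
    (hh : ((Finset.univ : Finset O).toList.map
        (fun o => cst e o * emb (u o) * (cst e o)⁻¹)).prod * (v⁻¹ * embR s * v) = H) :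
    N ≤ finrank ℂ (kerM (h - bd S (fun o => (u o : Matrix (Fin N) (Fin N) ℂ)))) := by
  have h1 := finrank_of_factor H _ v s hh
  refine h1.trans ?_
  rw [prod_cst_univ e u, hH]
  have h2 : bd (S ⊕ T) (fun o => (u o : Matrix (Fin N) (Fin N) ℂ)) =
      (Matrix.fromBlocks (bd S (fun o => (u o : Matrix (Fin N) (Fin N) ℂ))) 0 0
        (1 : Matrix T T ℂ)).submatrix
        (Equiv.sumAssoc _ _ _).symm (Equiv.sumAssoc _ _ _).symm := by
    ext a b
    rcases a with a | a | a <;> rcases b with b | b | b <;>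
      simp [bd, Matrix.one_apply]
  rw [h2, sub_submatrix', sub_submatrix', finrank_kerM_submatrix, finrank_kerM_submatrix]
  have h3 : Matrix.fromBlocks h 0 0 (-1 : Matrix T T ℂ) -
      Matrix.fromBlocks (bd S (fun o => (u o : Matrix (Fin N) (Fin N) ℂ))) 0 0
        (1 : Matrix T T ℂ) =
      Matrix.fromBlocks (h - bd S (fun o => (u o : Matrix (Fin N) (Fin N) ℂ))) 0 0
        ((-2 : ℂ) • (1 : Matrix T T ℂ)) := by
    ext a b
    rcases a with a | a <;> rcases b with b | b
    · simp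
    · simp
    · simp
    · simp only [Matrix.sub_apply, Matrix.fromBlocks_apply₂₂, Matrix.neg_apply,
        Matrix.smul_apply, smul_eq_mul]
      ring
  rw [h3]
  exact finrank_kerM_pad _

end Std

end Vale.Agent.P174.H89
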