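import Vale.Agent.P174.H89.Std
import Vale.Agent.P174.T2.Iface

/-!
# P174, package T2-KER: from solutions of the word equations to the final form of T2
-/

namespace Vale.Agent.P174.T2

open Matrix Module

section Core

variable {J : Type}

lemma emb_eq {N L : ℕ} (u : UU N) : H89.emb (L := L) u = blkU (u, 1) := Subtype.ext rfl

lemma embR_eq {N L : ℕ} (s : UU L) : H89.embR (N := N) s = blkU (1, s) := Subtype.ext rfl

/-- evaluation of the words in `π_j`, `v_j⁻¹ s_j v_j` and the parameters -/
def kev {P : Type} {N L : ℕ} (z : HS J N L) (ρ : P → UU (N + L)) :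
    FreeGroup ((J ⊕ J) ⊕ P) →* UU (N + L) :=
  (FreeGroup.lift (Sum.elim (inc z) ρ)).comp kap

lemma kev_param {P : Type} {N L : ℕ} (z : HS J N L) (ρ : P → UU (N + L)) (p : P) :
    kev z ρ (FreeGroup.of (Sum.inr p)) = ρ p := by
  simp [kev, kap]

lemma kev_pi {P : Type} {N L : ℕ} (z : HS J N L) (ρ : P → UU (N + L)) (j : J) :
    kev z ρ (FreeGroup.of (Sum.inl (Sum.inl j))) = H89.emb (z.1 j) := by
  rw [emb_eq]
  simp [kev, kap, inc]

lemma kev_s {P : Type} {N L : ℕ} (z : HS J N L) (ρ : P → UU (N + L)) (j : J) :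
    kev z ρ (FreeGroup.of (Sum.inl (Sum.inr j))) =
      (z.2.1 j)⁻¹ * H89.embR (z.2.2 j) * z.2.1 j := by
  rw [embR_eq]
  simp [kev, kap, inc]

lemma kev_letter {P : Type} {N L : ℕ} (z : HS J N L) (ρ : P → UU (N + L)) (x : J × Bool) :
    kev z ρ (FreeGroup.mk [(Sum.inl (Sum.inl x.1), x.2)]) = H89.spow (H89.emb (z.1 x.1)) x.2 := by
  rcases x with ⟨j, b⟩
  cases b
  · have : (FreeGroup.mk [((Sum.inl (Sum.inl j) : (J ⊕ J) ⊕ P), false)]) =
        (FreeGroup.of (Sum.inl (Sum.inl j)))⁻¹ := by
      simp [FreeGroup.of, FreeGroup.inv_mk, FreeGroup.invRev]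
    simp only [this, map_inv, kev_pi, H89.spow]
    simp
  · have : (FreeGroup.mk [((Sum.inl (Sum.inl j) : (J ⊕ J) ⊕ P), true)]) =
        FreeGroup.of (Sum.inl (Sum.inl j)) := rfl
    simp only [this, kev_pi, H89.spow]
    simp

lemma kev_prodl {N L : ℕ} (z : HS J N L) (ρ : J × ℕ → UU (N + L)) (j : J) :
    ∀ (l : List (J × Bool × UU (N + L))) (k : ℕ),
      (∀ n (hn : n < l.length), ρ (j, k + n + 1) = (l[n]).2.2) →
      kev z ρ (prodl j k (l.map (fun o => (o.1, o.2.1)))) =
        (l.map (fun o => o.2.2 * H89.spow (H89.emb (z.1 o.1)) o.2.1 * (o.2.2)⁻¹)).prod := by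
  intro l
  induction l with
  | nil => intro k _; simp [prodl]
  | cons o l ih =>
    intro k hk
    have h0 := hk 0 (by simp)
    have h1 : ∀ n (hn : n < l.length), ρ (j, (k + 1) + n + 1) = (l[n]).2.2 := by
      intro n hn
      have := hk (n + 1) (by simpa using hn)
      rw [show k + 1 + n + 1 = k + (n + 1) + 1 by ring, this]
      simp
    simp only [List.map_cons, prodl, List.prod_cons, map_mul, ih (k + 1) h1]
    congr 1
    simp only [lett, map_mul, map_inv, kev_param]
    simp only [Nat.add_zero] at h0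
    rw [h0, kev_letter z ρ (o.1, o.2.1)]
    simp

variable [Fintype J] [DecidableEq J]

theorem core_of_sol (h : SolStmt J) (N L : ℕ) : H89.CoreJ J N L := by
  intro O hdet H
  let occ : J → List (J × Bool) := fun j => (O j).map (fun o => (o.1, o.2.1))
  let ρ : J × ℕ → UU (N + L) := fun x => match x.2 with
    | 0 => H x.1
    | k + 1 => match (O x.1)[k]? with
      | some o => o.2.2
      | none => 1
  have hocc : (Matrix.of fun j i => expo (occ j) i : Matrix J J ℤ) = H89.expM O := by
    ext j i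
    simp only [expo, occ, H89.expM, Matrix.of_apply, List.map_map]
    rfl
  obtain ⟨z, hz⟩ := h N L occ (by rw [hocc]; exact hdet) ρ
  refine ⟨z.1, z.2.1, z.2.2, fun j => ?_⟩
  have h1 : kev z ρ ((FreeGroup.of (Sum.inr (j, 0)))⁻¹ * prodl j 0 (occ j) *
      FreeGroup.of (Sum.inl (Sum.inr j))) = 1 := hz j
  rw [map_mul, map_mul, map_inv, kev_param, kev_s] at h1
  have h2 := kev_prodl z ρ j (O j) 0 (by
    intro n hn
    simp [ρ, hn])
  simp only [occ] at h1
  rw [h2] at h1
  have h3 : ρ (j, 0) = H j := rfl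
  rw [h3] at h1
  rw [mul_assoc, inv_mul_eq_one] at h1
  exact h1.symm

end Core

section Final

variable {J : Type} [Fintype J] [DecidableEq J]

lemma Pmat_submatrix {D K : Type} [Fintype D] [DecidableEq D] [Fintype K] [DecidableEq K] {N : ℕ}
    (e : K × Fin N → D) (he : Function.Injective e) (i : K → J) (ε : K → Bool) (π : J → UU N)
    (E : (Fin N × K) ⊕ {x : D // ∀ y, e y ≠ x} ≃ D)
    (hE1 : ∀ p k, E (Sum.inl (p, k)) = e (k, p)) (hE2 : ∀ s, E (Sum.inr s) = s.1) :
    (Pmat e i ε π).submatrix E E = H89.bd {x : D // ∀ y, e y ≠ x}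
      (fun k => ((H89.spow (π (i k)) (ε k) : UU N) : Matrix (Fin N) (Fin N) ℂ)) := by
  ext a b
  rw [Matrix.submatrix_apply]
  unfold Pmat H89.bd
  rw [Matrix.of_apply]
  rcases a with ⟨p, k⟩ | s
  · have h0 : ¬ (∀ y', e y' ≠ E (Sum.inl (p, k))) := fun h => h (k, p) (hE1 p k).symm
    rcases b with ⟨q, l⟩ | s'
    · rw [if_neg (fun h => h0 h.2), add_zero]
      simp only [hE1, he.eq_iff, Prod.mk.injEq,
        Matrix.fromBlocks_apply₁₁, Matrix.blockDiagonal_apply]
      by_cases hkl : k = l
      · subst hkl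
        rw [Finset.sum_eq_single k, Finset.sum_eq_single p, Finset.sum_eq_single q]
        · simp [H89.spow]
        · intro q' _ hq'
          simp [hq']
        · simp
        · intro p' _ hp'
          simp [hp']
        · simp
        · intro k' _ hk'
          simp [hk']
        · simp
      · rw [if_neg hkl]
        apply Finset.sum_eq_zero
        intro k' _
        apply Finset.sum_eq_zero
        intro p' _
        apply Finset.sum_eq_zero
        intro q' _
        rw [if_neg]
        rintro ⟨⟨h1, _⟩, h2, _⟩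
        exact hkl (h1.symm.trans h2)
    · simp only [h0, and_false, if_false, add_zero, Matrix.fromBlocks_apply₁₂, Matrix.zero_apply]
      apply Finset.sum_eq_zero
      intro k' _
      apply Finset.sum_eq_zero
      intro p' _
      apply Finset.sum_eq_zero
      intro q' _
      rw [if_neg]
      rintro ⟨_, h2⟩
      rw [hE2] at h2
      exact s'.2 _ h2
  · have hs : ∀ k' p', e (k', p') ≠ E (Sum.inr s) := by
      intro k' p' h
      rw [hE2] at h
      exact s.2 _ h
    have h0 : ∀ y', e y' ≠ E (Sum.inr s) := fun y' => hs y'.1 y'.2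
    rcases b with ⟨q, l⟩ | s'
    · have : E (Sum.inr s) ≠ E (Sum.inl (q, l)) := by
        intro h
        simpa using E.injective h
      simp [hs, this]
    · simp [hs, E.injective.eq_iff, Matrix.one_apply]

/-- **T2-KER**: the final statement T2 from the solutions of the word equations -/
theorem t2_of_sol (h : SolStmt J) : T2Stmt J := by
  classical
  intro N D K _ _ _ e i ε he hdet H
  let S : J → Type := fun j => {x : D j // ∀ y, e j y ≠ x}
  have hEb : ∀ j, Function.Bijective (Sum.elim (fun x : Fin N × K j => e j (x.2, x.1))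
      (Subtype.val : S j → D j)) := by
    intro j
    constructor
    · rintro (⟨p, k⟩ | s) (⟨q, l⟩ | s') hab
      · have := he j hab
        simp only [Prod.mk.injEq] at this
        simp [this.1, this.2]
      · exact absurd hab (s'.2 _)
      · exact absurd hab.symm (s.2 _)
      · exact congrArg Sum.inr (Subtype.ext hab)
    · intro x
      by_cases hx : ∃ y, e j y = x
      · obtain ⟨⟨k, p⟩, hy⟩ := hx
        exact ⟨Sum.inl (p, k), hy⟩
      · exact ⟨Sum.inr ⟨x, fun y hy => hx ⟨y, hy⟩⟩, rfl⟩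
  let E : ∀ j, (Fin N × K j) ⊕ S j ≃ D j := fun j => Equiv.ofBijective _ (hEb j)
  have hu : ∀ j, ((H j : Matrix (D j) (D j) ℂ).submatrix (E j) (E j)) ∈
      Matrix.unitaryGroup ((Fin N × K j) ⊕ S j) ℂ := by
    intro j
    rw [Matrix.mem_unitaryGroup_iff, Matrix.star_eq_conjTranspose,
      Matrix.conjTranspose_submatrix, Matrix.submatrix_mul_equiv]
    have : (H j : Matrix (D j) (D j) ℂ) * (H j : Matrix (D j) (D j) ℂ)ᴴ = 1 :=
      Matrix.mem_unitaryGroup_iff.1 (H j).2
    rw [this]
    simp
  obtain ⟨p, hp⟩ := H89.T2_std (fun L => core_of_sol h N L) K S i ε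
    (fun j => (H j : Matrix (D j) (D j) ℂ).submatrix (E j) (E j)) hu (by
      have : (Matrix.of fun j i' => ∑ k : K j, if i j k = i' then H89.sgn (ε j k) else 0 :
          Matrix J J ℤ) = (Matrix.of fun j i' => ∑ k : K j,
            if i j k = i' then (if ε j k then (1 : ℤ) else -1) else 0 : Matrix J J ℤ) := rfl
      rw [this]
      exact hdet)
  refine ⟨p, fun j => ?_⟩
  have h1 := hp j
  rw [← Pmat_submatrix (e j) (he j) (i j) (ε j) p (E j) (fun _ _ => rfl) (fun _ => rfl),
    H89.sub_submatrix', H89.finrank_kerM_submatrix] at h1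
  rw [Matrix.toLin'_apply']
  exact h1

end Final

end Vale.Agent.P174.T2
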