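import Vale.Agent.P174.H89.Emb

/-!
# P174, endgame of T2: block permutations
-/

namespace Vale.Agent.P174.H89

open Matrix

/-- permutation matrix as a unitary -/
noncomputable def cperm {M : ℕ} (σ : Equiv.Perm (Fin M)) : UU M :=
  ⟨(1 : Matrix (Fin M) (Fin M) ℂ).submatrix id σ, by
    rw [Matrix.mem_unitaryGroup_iff, Matrix.star_eq_conjTranspose, Matrix.conjTranspose_submatrix,
      Matrix.conjTranspose_one, Matrix.submatrix_mul_equiv]
    simp⟩

lemma cperm_conj {M : ℕ} (σ : Equiv.Perm (Fin M)) (A : Matrix (Fin M) (Fin M) ℂ) :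
    (cperm σ : Matrix (Fin M) (Fin M) ℂ) * A * star (cperm σ : Matrix (Fin M) (Fin M) ℂ) =
      A.submatrix σ.symm σ.symm := by
  show (1 : Matrix (Fin M) (Fin M) ℂ).submatrix id σ * A *
    star ((1 : Matrix (Fin M) (Fin M) ℂ).submatrix id σ) = _
  rw [Matrix.star_eq_conjTranspose, Matrix.conjTranspose_submatrix, Matrix.conjTranspose_one,
    Matrix.one_submatrix_mul, Matrix.mul_submatrix_one]
  simp [Matrix.submatrix_submatrix]

lemma exists_perm {M : ℕ} {ι : Type*} (f g : ι → Fin M) (hf : Function.Injective f)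
    (hg : Function.Injective g) : ∃ σ : Equiv.Perm (Fin M), ∀ p, σ (f p) = g p := by
  classical
  let e : {x // x ∈ Set.range f} ≃ {x // x ∈ Set.range g} :=
    (Equiv.ofInjective f hf).symm.trans (Equiv.ofInjective g hg)
  refine ⟨e.extendSubtype, fun p => ?_⟩
  rw [Equiv.extendSubtype_apply_of_mem e (f p) ⟨p, rfl⟩]
  have : (⟨f p, ⟨p, rfl⟩⟩ : {x // x ∈ Set.range f}) = Equiv.ofInjective f hf p := rfl
  rw [this]
  simp [e]

section Block

variable {N : ℕ} {O T : Type*} [DecidableEq O] [DecidableEq T]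

/-- block diagonal matrix with blocks `f o`, plus an identity block -/
def bd (T : Type*) [DecidableEq T] (f : O → Matrix (Fin N) (Fin N) ℂ) :
    Matrix ((Fin N × O) ⊕ T) ((Fin N × O) ⊕ T) ℂ :=
  Matrix.fromBlocks (Matrix.blockDiagonal f) 0 0 1

lemma bd_mul [Fintype O] [Fintype T] (f g : O → Matrix (Fin N) (Fin N) ℂ) :
    bd T f * bd T g = bd T (fun o => f o * g o) := by
  unfold bd
  rw [Matrix.fromBlocks_multiply, Matrix.blockDiagonal_mul]
  simp

lemma bd_one : bd T (fun _ : O => (1 : Matrix (Fin N) (Fin N) ℂ)) = 1 := by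
  unfold bd
  have h : Matrix.blockDiagonal (fun _ : O => (1 : Matrix (Fin N) (Fin N) ℂ)) = 1 := by
    exact Matrix.blockDiagonal_one
  rw [h, Matrix.fromBlocks_one]

lemma bd_star (f : O → Matrix (Fin N) (Fin N) ℂ) :
    (bd T f)ᴴ = bd T (fun o => (f o)ᴴ) := by
  unfold bd
  rw [Matrix.fromBlocks_conjTranspose, Matrix.blockDiagonal_conjTranspose]
  simp

lemma bd_single_row (o : O) (u : Matrix (Fin N) (Fin N) ℂ) (y y' : (Fin N × O) ⊕ T)
    (hy : ∀ p, y ≠ Sum.inl (p, o)) :
    bd T (Pi.mulSingle o u) y y' = if y = y' then 1 else 0 := by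
  unfold bd
  rcases y with ⟨q, o1⟩ | t
  · have ho : o1 ≠ o := by
      rintro rfl
      exact hy q rfl
    rcases y' with ⟨q', o2⟩ | t'
    · simp only [Matrix.fromBlocks_apply₁₁, Matrix.blockDiagonal_apply, Sum.inl.injEq,
        Prod.mk.injEq]
      by_cases h : o1 = o2
      · subst h
        simp [Pi.mulSingle_eq_of_ne ho, Matrix.one_apply]
      · simp [h]
    · simp
  · rcases y' with ⟨q', o2⟩ | t'
    · simp
    · simp [Matrix.one_apply]

lemma bd_single_col (o : O) (u : Matrix (Fin N) (Fin N) ℂ) (y y' : (Fin N × O) ⊕ T)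
    (hy : ∀ p, y' ≠ Sum.inl (p, o)) :
    bd T (Pi.mulSingle o u) y y' = if y = y' then 1 else 0 := by
  unfold bd
  rcases y' with ⟨q, o1⟩ | t
  · have ho : o1 ≠ o := by
      rintro rfl
      exact hy q rfl
    rcases y with ⟨q', o2⟩ | t'
    · simp only [Matrix.fromBlocks_apply₁₁, Matrix.blockDiagonal_apply, Sum.inl.injEq,
        Prod.mk.injEq]
      by_cases h : o2 = o1
      · subst h
        simp [Pi.mulSingle_eq_of_ne ho, Matrix.one_apply]
      · simp [h]
    · simp
  · rcases y with ⟨q', o2⟩ | t'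
    · simp
    · simp [Matrix.one_apply]

lemma bd_single_reindex {L : ℕ} (o : O) (u : Matrix (Fin N) (Fin N) ℂ)
    (κ : Fin N ⊕ Fin L ≃ (Fin N × O) ⊕ T) (hκ : ∀ p, κ (Sum.inl p) = Sum.inl (p, o)) :
    (bd T (Pi.mulSingle o u)).submatrix κ κ = Matrix.fromBlocks u 0 0 1 := by
  have hr : ∀ l p, κ (Sum.inr l) ≠ Sum.inl (p, o) := by
    intro l p h
    rw [← hκ] at h
    exact absurd (κ.injective h) (by simp)
  ext a b
  rcases a with p | l
  · rcases b with q | l'
    · simp [hκ, bd]
    · rw [Matrix.submatrix_apply, bd_single_col o u _ _ (hr l')]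
      simp [κ.injective.eq_iff]
  · rw [Matrix.submatrix_apply, bd_single_row o u _ _ (hr l)]
    rcases b with q | l'
    · simp [κ.injective.eq_iff]
    · simp [κ.injective.eq_iff, Matrix.one_apply]

end Block

lemma spow_coe {N : ℕ} (u : UU N) (b : Bool) :
    ((spow u b : UU N) : Matrix (Fin N) (Fin N) ℂ) = if b then (u : Matrix _ _ ℂ) else (u : Matrix (Fin N) (Fin N) ℂ)ᴴ := by
  cases b <;> simp [spow, Matrix.star_eq_conjTranspose, Matrix.UnitaryGroup.inv_val]

lemma emb_coe {N L : ℕ} (u : UU N) :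
    ((emb (L := L) u : UU (N + L)) : Matrix _ _ ℂ) = embM N L u := rfl

lemma embR_coe {N L : ℕ} (u : UU L) :
    ((embR (N := N) u : UU (N + L)) : Matrix _ _ ℂ) = embRM N L u := rfl

lemma emb_mul {N L : ℕ} (a b : UU N) : emb (L := L) (a * b) = emb a * emb b := by
  apply Subtype.ext
  show embM N L _ = embM N L _ * embM N L _
  rw [← embM_mul]
  rfl

lemma emb_one {N L : ℕ} : emb (L := L) (1 : UU N) = 1 := by
  apply Subtype.ext
  exact embM_one

lemma emb_inv {N L : ℕ} (a : UU N) : emb (L := L) a⁻¹ = (emb a)⁻¹ := by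
  apply eq_inv_of_mul_eq_one_left
  rw [← emb_mul, inv_mul_cancel, emb_one]

lemma emb_spow {N L : ℕ} (u : UU N) (b : Bool) : spow (emb (L := L) u) b = emb (spow u b) := by
  cases b <;> simp [spow, emb_inv]

section Occ

variable {N L : ℕ} {O T : Type*} [DecidableEq O] [DecidableEq T]

/-- for every occurrence there is a constant unitary conjugating `u ⊕ 1` to the block matrix with
`u` in the block `o` -/
lemma exists_const (e : (Fin N × O) ⊕ T ≃ Fin (N + L)) (o : O) :
    ∃ c : UU (N + L), ∀ u : UU N,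
      ((c * emb u * c⁻¹ : UU (N + L)) : Matrix (Fin (N + L)) (Fin (N + L)) ℂ) =
        (bd T (Pi.mulSingle o (u : Matrix (Fin N) (Fin N) ℂ))).submatrix e.symm e.symm := by
  obtain ⟨σ, hσ⟩ := exists_perm (fun p : Fin N => finSumFinEquiv (Sum.inl p : Fin N ⊕ Fin L))
    (fun p : Fin N => e (Sum.inl (p, o)))
    (fun a b h => by
      have := finSumFinEquiv.injective h
      simpa using this)
    (fun a b h => by
      have := e.injective h
      simpa using this)
  refine ⟨cperm σ, fun u => ?_⟩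
  let κ : Fin N ⊕ Fin L ≃ (Fin N × O) ⊕ T := (finSumFinEquiv.trans σ).trans e.symm
  have hκ : ∀ p, κ (Sum.inl p) = Sum.inl (p, o) := by
    intro p
    have := hσ p
    simp only [κ, Equiv.trans_apply]
    rw [this]
    simp
  have h1 := bd_single_reindex (T := T) o (u : Matrix (Fin N) (Fin N) ℂ) κ hκ
  show (cperm σ : Matrix (Fin (N + L)) (Fin (N + L)) ℂ) * embM N L u *
    star (cperm σ : Matrix (Fin (N + L)) (Fin (N + L)) ℂ) = _
  rw [cperm_conj, embM, ← h1]
  ext a b
  simp [κ, Matrix.submatrix_apply, Matrix.reindex_apply]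

/-- the constant of the occurrence `o` -/
noncomputable def cst (e : (Fin N × O) ⊕ T ≃ Fin (N + L)) (o : O) : UU (N + L) :=
  (exists_const e o).choose

lemma cst_spec (e : (Fin N × O) ⊕ T ≃ Fin (N + L)) (o : O) (u : UU N) :
    ((cst e o * emb u * (cst e o)⁻¹ : UU (N + L)) : Matrix (Fin (N + L)) (Fin (N + L)) ℂ) =
      (bd T (Pi.mulSingle o (u : Matrix (Fin N) (Fin N) ℂ))).submatrix e.symm e.symm :=
  (exists_const e o).choose_spec u

lemma prod_cst [Fintype O] [Fintype T] (e : (Fin N × O) ⊕ T ≃ Fin (N + L)) (u : O → UU N) :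
    ∀ l : List O, l.Nodup →
      (((l.map (fun o => cst e o * emb (u o) * (cst e o)⁻¹)).prod : UU (N + L)) :
        Matrix (Fin (N + L)) (Fin (N + L)) ℂ) =
        (bd T (fun o => if o ∈ l then (u o : Matrix (Fin N) (Fin N) ℂ) else 1)).submatrix
          e.symm e.symm := by
  intro l
  induction l with
  | nil =>
    intro _
    simp only [List.map_nil, List.prod_nil, List.not_mem_nil, if_false]
    rw [bd_one]
    simp
  | cons o l ih =>
    intro hl
    rw [List.nodup_cons] at hl
    rw [List.map_cons, List.prod_cons]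
    have h1 := ih hl.2
    have h2 := cst_spec e o (u o)
    rw [Submonoid.coe_mul, h2, h1, Matrix.submatrix_mul_equiv, bd_mul]
    congr 2
    funext o'
    by_cases h : o' = o
    · subst h
      simp [hl.1]
    · simp [Pi.mulSingle_eq_of_ne h, h]

lemma prod_cst_univ [Fintype O] [Fintype T] (e : (Fin N × O) ⊕ T ≃ Fin (N + L)) (u : O → UU N) :
    ((((Finset.univ : Finset O).toList.map
        (fun o => cst e o * emb (u o) * (cst e o)⁻¹)).prod : UU (N + L)) :
        Matrix (Fin (N + L)) (Fin (N + L)) ℂ) =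
        (bd T (fun o => (u o : Matrix (Fin N) (Fin N) ℂ))).submatrix e.symm e.symm := by
  rw [prod_cst e u _ (Finset.nodup_toList _)]
  simp

end Occ

end Vale.Agent.P174.H89
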