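import Vale.Agent.P174.H89.Ker

/-!
# P174, endgame of T2: all equations at once
-/

namespace Vale.Agent.P174.H89

open Matrix Module

lemma exists_equiv_fin {A : Type} [Fintype A] {M : ℕ} (h : Fintype.card A ≤ M) {B C : Type}
    [Fintype B] [Fintype C] (hA : Fintype.card B + Fintype.card C = Fintype.card A) :
    Nonempty (B ⊕ (C ⊕ Fin (M - Fintype.card A)) ≃ Fin M) := by
  refine ⟨Fintype.equivFinOfCardEq ?_⟩
  simp only [Fintype.card_sum, Fintype.card_fin]
  omega

/-- T2 for standard index types, from the core statement. -/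
theorem T2_std {N : ℕ} {J : Type} [Fintype J] [DecidableEq J] (hCore : ∀ L, CoreJ J N L)
    (O S : J → Type) [∀ j, Fintype (O j)] [∀ j, DecidableEq (O j)]
    [∀ j, Fintype (S j)] [∀ j, DecidableEq (S j)]
    (r : ∀ j, O j → J) (e : ∀ j, O j → Bool)
    (h : ∀ j, Matrix ((Fin N × O j) ⊕ S j) ((Fin N × O j) ⊕ S j) ℂ)
    (hu : ∀ j, h j ∈ Matrix.unitaryGroup ((Fin N × O j) ⊕ S j) ℂ)
    (hdet : (Matrix.of fun j i => ∑ o : O j, if r j o = i then sgn (e j o) else 0 :
      Matrix J J ℤ).det ≠ 0) :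
    ∃ p : J → UU N, ∀ j, N ≤ finrank ℂ (kerM (h j -
      bd (S j) (fun o => ((spow (p (r j o)) (e j o) : UU N) : Matrix (Fin N) (Fin N) ℂ)))) := by
  classical
  let L : ℕ := ∑ j, Fintype.card ((Fin N × O j) ⊕ S j)
  have hL : ∀ j, Fintype.card ((Fin N × O j) ⊕ S j) ≤ N + L := fun j =>
    (Finset.single_le_sum (f := fun j => Fintype.card ((Fin N × O j) ⊕ S j))
      (fun _ _ => Nat.zero_le _) (Finset.mem_univ j)).trans (Nat.le_add_left _ _)
  let T : J → Type := fun j => Fin (N + L - Fintype.card ((Fin N × O j) ⊕ S j))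
  have hE : ∀ j, Nonempty ((Fin N × O j) ⊕ (S j ⊕ T j) ≃ Fin (N + L)) := fun j =>
    exists_equiv_fin (hL j) (by simp)
  let E : ∀ j, (Fin N × O j) ⊕ (S j ⊕ T j) ≃ Fin (N + L) := fun j => (hE j).some
  let HM : ∀ j, Matrix (Fin (N + L)) (Fin (N + L)) ℂ := fun j =>
    ((Matrix.fromBlocks (h j) 0 0 (-1 : Matrix (T j) (T j) ℂ)).submatrix
        (Equiv.sumAssoc _ _ _).symm (Equiv.sumAssoc _ _ _).symm).submatrix (E j).symm (E j).symm
  have hHM : ∀ j, HM j ∈ Matrix.unitaryGroup (Fin (N + L)) ℂ := by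
    intro j
    rw [Matrix.mem_unitaryGroup_iff]
    have h1 : (h j) * (h j)ᴴ = 1 := Matrix.mem_unitaryGroup_iff.1 (hu j)
    simp only [HM]
    rw [Matrix.star_eq_conjTranspose, Matrix.conjTranspose_submatrix,
      Matrix.conjTranspose_submatrix, Matrix.submatrix_mul_equiv, Matrix.submatrix_mul_equiv,
      Matrix.fromBlocks_conjTranspose, Matrix.fromBlocks_multiply]
    simp [h1]
  let H : J → UU (N + L) := fun j => ⟨HM j, hHM j⟩
  let OO : J → List (J × Bool × UU (N + L)) := fun j =>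
    (Finset.univ : Finset (O j)).toList.map (fun o => (r j o, e j o, cst (E j) o))
  have hexp : expM OO = (Matrix.of fun j i => ∑ o : O j, if r j o = i then sgn (e j o) else 0 :
      Matrix J J ℤ) := by
    ext j i
    simp only [expM, OO, Matrix.of_apply, List.map_map]
    rw [← Finset.sum_map_toList]
    rfl
  obtain ⟨p, v, s, hp⟩ := hCore L OO (by rw [hexp]; exact hdet) H
  refine ⟨p, fun j => ?_⟩
  have h1 := hp j
  simp only [OO, List.map_map] at h1
  refine finrank_one (E j) (fun o => spow (p (r j o)) (e j o)) (h j) (H j) rfl (v j) (s j) ?_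
  rw [← h1]
  congr 1
  apply congrArg List.prod
  apply List.map_congr_left
  intro o _
  simp [emb_spow]

end Vale.Agent.P174.H89
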